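import Vale.Agent.KK.LS.Main

/-!
# P064: the copy-count inequality for all patterns, with a logarithmic factor

If every subgraph `H'` of a graph `H` on `n ≥ 2` labelled vertices satisfies
`N(K_n,H') q^{e(H')} ≥ 1`, then for every graph `F` on the same `n` labelled vertices (any
graph with at most `n` vertices, padded by isolated vertices),
`N(H,F) ≤ N(K_n,F) min(1, 10^124 q log n)^{e(F)}`, the right side being the expected number
of copies of `F` in `G(n,p)` at `p = min(1, 10^124 q log n)`.
-/

open SimpleGraph

theorem Vale.Agent.Results.P064.CopyCountLog.result :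
    ∀ (n : ℕ) (H : SimpleGraph (Fin n)) (q : ℝ), 2 ≤ n → 0 ≤ q →
      (∀ H' : H.Subgraph,
        1 ≤ ((⊤ : SimpleGraph (Fin n)).copyCount H'.coe : ℝ) * q ^ H'.edgeSet.ncard) →
      ∀ F : SimpleGraph (Fin n),
        (H.copyCount F : ℝ) ≤
          ((⊤ : SimpleGraph (Fin n)).copyCount F : ℝ) *
            (min 1 (10 ^ 124 * q * Real.log n)) ^ F.edgeSet.ncard := by
  intro n H q hn hq0 h F
  exact Vale.Agent.KK.LS.copyCount_log_le hn H q hq0 h F
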