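import Vale.Agent.KK.LS.Graded

/-!
# P064: the inequality of Q1 in the sparse and in the dense regime, and `(log n)^2` in general

For a graph `H` on `n ≥ 2` labelled vertices write

* `p_c` for the least `p` in `[0,1]` at which `G(n,p)` contains a copy of `H` with
  probability at least `1/2`; the probability is written out as the sum of
  `p^{e(G)} (1-p)^{C(n,2)-e(G)}` over all graphs `G` on `[n]` that contain a copy of `H`;
* `p_E` for the least `p` in `[0,1]` with `N(K_n,F) p^{e(F)} ≥ 1/2` for every subgraph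
  `F` of `H` (`N(K_n,F) p^{e(F)}` is the expected number of copies of `F` in `G(n,p)`).

Then, with no assumption on `H`:

1. `p_c ≤ 10^126 * p_E * (log n)^2`;
2. `p_c ≤ 10^125 * exp(240 * n * p_E) * p_E * log n` (the inequality of Q1 when `n * p_E` is
   bounded);
3. if `k ≥ 1`, `M ≥ 1`, `log n ≤ M^k` and `3 * log n ≤ n * p_E^k`, then
   `p_c ≤ 10^5 * M^2 * p_E * log n` (the inequality of Q1, with `M = 2`, when
   `p_E ≥ (3 log n / n)^(1/k)` for some `k` with `2^k ≥ log n`);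
4. if `k ≥ 1`, `log n ≤ 2^k`, `9 * (log n)^2 ≤ n` and some vertex set `A` spans a set `D` of
   at least `2 * k * (|A| + 1)` edges of `H`, then `p_c ≤ 4 * 10^5 * p_E * log n`.
-/

open SimpleGraph

theorem Vale.Agent.Results.P064.DenseAndSparseRegimes.result :
    ∀ (n : ℕ) (H : SimpleGraph (Fin n)), 2 ≤ n → ∀ pc pE : ℝ,
      pc = sInf {p : ℝ | 0 ≤ p ∧ p ≤ 1 ∧ (1 : ℝ) / 2 ≤ ∑ G : SimpleGraph (Fin n),
          Set.indicator {G | H.IsContained G}
            (fun G => p ^ G.edgeSet.ncard * (1 - p) ^ (n.choose 2 - G.edgeSet.ncard)) G} →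
      pE = sInf {p : ℝ | 0 ≤ p ∧ p ≤ 1 ∧ ∀ H' : H.Subgraph,
          (1 : ℝ) / 2 ≤
            ((⊤ : SimpleGraph (Fin n)).copyCount H'.coe : ℝ) * p ^ H'.edgeSet.ncard} →
      pc ≤ 10 ^ 126 * pE * Real.log n ^ 2 ∧
      pc ≤ 10 ^ 125 * Real.exp (240 * (n * pE)) * pE * Real.log n ∧
      (∀ (k : ℕ) (M : ℝ), 1 ≤ k → 1 ≤ M → Real.log n ≤ M ^ k →
        3 * Real.log n ≤ n * pE ^ k → pc ≤ 10 ^ 5 * M ^ 2 * pE * Real.log n) ∧
      (∀ (k : ℕ) (A : Finset (Fin n)) (D : Finset (Sym2 (Fin n))), 1 ≤ k →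
        Real.log n ≤ 2 ^ k → 9 * Real.log n ^ 2 ≤ n →
        (∀ e ∈ D, e ∈ H.edgeSet ∧ ∀ v ∈ e, v ∈ A) → 2 * k * (A.card + 1) ≤ D.card →
        pc ≤ 4 * 10 ^ 5 * pE * Real.log n) := by
  intro n H hn pc pE hpc hpE
  subst hpc hpE
  refine ⟨Vale.Agent.KK.LS.log_sq_threshold_le hn H, Vale.Agent.KK.RG.exp_threshold_le hn H,
    ?_, ?_⟩
  · intro k M hk hM hlog h3
    exact Vale.Agent.KK.LS.graded_threshold_le hn H k hk M hM hlog h3
  · intro k A D hk hlog hnlog hD hcard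
    exact Vale.Agent.KK.LS.dense_subgraph_threshold_le hn H k hk hlog hnlog A D hD hcard
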