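import Vale.Agent.KK.LS.Main

/-!
# P064: the threshold is at most `C * p_E * (log n)^2` for every graph

For every graph `H` on `n ≥ 2` labelled vertices,
`p_c(n,H) ≤ 10^126 * p_E(n,H) * (log n)^2`, where

* `p_c(n,H)` is the least `p` in `[0,1]` at which `G(n,p)` contains a copy of `H` with
  probability at least `1/2`; the probability is written out as the sum of
  `p^{e(G)} (1-p)^{C(n,2)-e(G)}` over all graphs `G` on `[n]` that contain a copy of `H`;
* `p_E(n,H)` is the least `p` in `[0,1]` with `N(K_n,F) p^{e(F)} ≥ 1/2` for every subgraph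
  `F` of `H` (`N(K_n,F) p^{e(F)}` is the expected number of copies of `F` in `G(n,p)`).

No assumption is made on `H`. So the function `f` of the problem satisfies
`f(n) ≤ 10^126 (log n)^2`.
-/

open SimpleGraph

theorem Vale.Agent.Results.P064.LogSquared.result :
    ∀ (n : ℕ) (H : SimpleGraph (Fin n)), 2 ≤ n →
      sInf {p : ℝ | 0 ≤ p ∧ p ≤ 1 ∧ (1 : ℝ) / 2 ≤ ∑ G : SimpleGraph (Fin n),
          Set.indicator {G | H.IsContained G}
            (fun G => p ^ G.edgeSet.ncard * (1 - p) ^ (n.choose 2 - G.edgeSet.ncard)) G} ≤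
        10 ^ 126 *
          sInf {p : ℝ | 0 ≤ p ∧ p ≤ 1 ∧ ∀ H' : H.Subgraph,
            (1 : ℝ) / 2 ≤
              ((⊤ : SimpleGraph (Fin n)).copyCount H'.coe : ℝ) * p ^ H'.edgeSet.ncard} *
          Real.log n ^ 2 := by
  intro n H hn
  exact Vale.Agent.KK.LS.log_sq_threshold_le hn H
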