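import Vale.Agent.Lib.P064.bd.Main

/-!
# P064: `log^2 n` for all graphs, and the bound of Q1 for two classes of graphs

For every graph `H` on `n ≥ 2` labelled vertices:

1. `p_c(n,H) ≤ 10^126 * p_E(n,H) * (log n)^2` (no assumption on `H`);
2. if every vertex of `H` has at most `D` neighbours (`D ≥ 1`), then
   `p_c(n,H) ≤ 12000 * D * p_E(n,H) * log n`;
3. if every set `S` of vertices spans at most `|S|` edges of `H` (equivalently, every connected
   component of `H` contains at most one cycle), then `p_c(n,H) ≤ 10^12 * p_E(n,H) * log n`.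

Here

* `p_c(n,H)` is the least `p` in `[0,1]` at which `G(n,p)` contains a copy of `H` with
  probability at least `1/2`; the probability is written out as the sum of
  `p^{e(G)} (1-p)^{C(n,2)-e(G)}` over all graphs `G` on `[n]` that contain a copy of `H`;
* `p_E(n,H)` is the least `p` in `[0,1]` with `N(K_n,F) p^{e(F)} ≥ 1/2` for every subgraph
  `F` of `H` (`N(K_n,F) p^{e(F)}` is the expected number of copies of `F` in `G(n,p)`).
-/

open SimpleGraph

theorem Vale.Agent.Results.P064.LogSquaredAndClasses.result :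
    ∀ (n : ℕ) (H : SimpleGraph (Fin n)), 2 ≤ n →
      (sInf {p : ℝ | 0 ≤ p ∧ p ≤ 1 ∧ (1 : ℝ) / 2 ≤ ∑ G : SimpleGraph (Fin n),
          Set.indicator {G | H.IsContained G}
            (fun G => p ^ G.edgeSet.ncard * (1 - p) ^ (n.choose 2 - G.edgeSet.ncard)) G} ≤
        10 ^ 126 *
          sInf {p : ℝ | 0 ≤ p ∧ p ≤ 1 ∧ ∀ H' : H.Subgraph,
            (1 : ℝ) / 2 ≤
              ((⊤ : SimpleGraph (Fin n)).copyCount H'.coe : ℝ) * p ^ H'.edgeSet.ncard} *
          Real.log n ^ 2) ∧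
      (∀ D : ℕ, 1 ≤ D → (∀ v : Fin n, (H.neighborSet v).ncard ≤ D) →
        sInf {p : ℝ | 0 ≤ p ∧ p ≤ 1 ∧ (1 : ℝ) / 2 ≤ ∑ G : SimpleGraph (Fin n),
            Set.indicator {G | H.IsContained G}
              (fun G => p ^ G.edgeSet.ncard * (1 - p) ^ (n.choose 2 - G.edgeSet.ncard)) G} ≤
          12000 * D *
            sInf {p : ℝ | 0 ≤ p ∧ p ≤ 1 ∧ ∀ H' : H.Subgraph,
              (1 : ℝ) / 2 ≤
                ((⊤ : SimpleGraph (Fin n)).copyCount H'.coe : ℝ) * p ^ H'.edgeSet.ncard} *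
            Real.log n) ∧
      ((∀ S : Finset (Fin n), {e ∈ H.edgeSet | ∀ v ∈ e, v ∈ S}.ncard ≤ S.card) →
        sInf {p : ℝ | 0 ≤ p ∧ p ≤ 1 ∧ (1 : ℝ) / 2 ≤ ∑ G : SimpleGraph (Fin n),
            Set.indicator {G | H.IsContained G}
              (fun G => p ^ G.edgeSet.ncard * (1 - p) ^ (n.choose 2 - G.edgeSet.ncard)) G} ≤
          1000000000000 *
            sInf {p : ℝ | 0 ≤ p ∧ p ≤ 1 ∧ ∀ H' : H.Subgraph,
              (1 : ℝ) / 2 ≤
                ((⊤ : SimpleGraph (Fin n)).copyCount H'.coe : ℝ) * p ^ H'.edgeSet.ncard} *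
            Real.log n) := by
  intro n H hn
  exact ⟨Vale.Agent.KK.LS.log_sq_threshold_le hn H,
    fun D hD1 hD => Vale.Agent.Lib.P064.BD.degree_threshold_le hn H D hD1 hD,
    fun hH => Vale.Agent.KK.PF.pseudoforest_threshold_le hn H hH⟩
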